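import Vale.Agent.P227.M.MX.Main
import Vale.Agent.P227.M.LL.RegLap

/-! # P227/M/MX: `StmtSC → StmtMM` -/

namespace Vale.Agent.P227.M.MX

theorem logLapReg : LK.B136.LogLapReg := fun _ _ _ _ hC h => reg_logLap hC h

/-- **existence of the moment map potential from the self-concordance theorem** -/
theorem stmtMM_of_sc (hSC : StmtSC) : StmtMM := stmtMM_of hSC logLapReg

end Vale.Agent.P227.M.MX
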