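import Mathlib
import Vale.Agent.P227.M.LK.Desc

/-! # P227/M/MX: Laplace asymptotics at a point, level `k → ∞`, directly in `x`-space -/

open MeasureTheory Set Filter Topology

namespace Vale.Agent.P227.M.MX

variable {E : Type*} [NormedAddCommGroup E] [InnerProductSpace ℝ E] [FiniteDimensional ℝ E]
  [MeasurableSpace E] [BorelSpace E]

/-- Laplace transform of `exp (-f)` -/
noncomputable def Lpl (f : E → ℝ) (w : E) : ℝ := ∫ u : E, Real.exp (inner ℝ u w - f u)

theorem integrable_Lpl {f : E → ℝ} {a : ℝ} (ha : 0 < a) (hf : Measurable f)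
    (h : ∀ u, a / 2 * ‖u‖ ^ 2 ≤ f u) (w : E) :
    Integrable fun u : E => Real.exp (inner ℝ u w - f u) := by
  have h1 := LK.integrable_exp_of_quad (f := fun u : E => a / 2 * ‖u‖ ^ 2) (a := a) ha one_pos (by fun_prop)
    (fun u => by simp) 1 w
  refine h1.mono' ?_ (Eventually.of_forall fun u => ?_)
  · have : Measurable fun x : E => (inner ℝ x w : ℝ) := (continuous_id.inner continuous_const).measurable
    exact (Real.measurable_exp.comp (this.sub hf)).aestronglyMeasurable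
  · rw [Real.norm_eq_abs, abs_of_pos (Real.exp_pos _)]
    refine Real.exp_le_exp.2 ?_
    have := h u
    linarith

theorem Lpl_pos {f : E → ℝ} {a : ℝ} (ha : 0 < a) (hf : Measurable f)
    (h : ∀ u, a / 2 * ‖u‖ ^ 2 ≤ f u) (w : E) : 0 < Lpl f w :=
  integral_exp_pos (integrable_Lpl ha hf h w)

/-- dominated convergence, inner integral -/
theorem tendsto_Lpl {f : ℕ → E → ℝ} {g : E → ℝ} {a : ℝ} (ha : 0 < a) (hf : ∀ j, Measurable (f j))
    (h : ∀ j u, a / 2 * ‖u‖ ^ 2 ≤ f j u) (hlim : ∀ u, Tendsto (fun j => f j u) atTop (𝓝 (g u))) (w : E) :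
    Tendsto (fun j => Lpl (f j) w) atTop (𝓝 (Lpl g w)) := by
  unfold Lpl
  refine tendsto_integral_of_dominated_convergence
    (fun u : E => Real.exp (inner ℝ u w - a / 2 * ‖u‖ ^ 2)) (fun j => ?_) ?_ (fun j => ?_) ?_
  · exact (integrable_Lpl ha (hf j) (h j) w).aestronglyMeasurable
  · exact integrable_Lpl ha (by fun_prop) (fun u => le_rfl) w
  · refine Eventually.of_forall fun u => ?_
    rw [Real.norm_eq_abs, abs_of_pos (Real.exp_pos _)]
    refine Real.exp_le_exp.2 ?_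
    have := h j u
    linarith
  · refine Eventually.of_forall fun u => ?_
    exact (Real.continuous_exp.tendsto _).comp (tendsto_const_nhds.sub (hlim u))

/-- completing the square -/
theorem Lpl_quad {b : ℝ} (hb : 0 < b) (w : E) :
    Lpl (fun u : E => b / 2 * ‖u‖ ^ 2) w = Real.exp (‖w‖ ^ 2 / (2 * b)) * ∫ v : E, Real.exp (-(b / 2 * ‖v‖ ^ 2)) := by
  unfold Lpl
  rw [← integral_const_mul, ← integral_add_right_eq_self (μ := (volume : Measure E)) _ (b⁻¹ • w)]
  congr 1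
  ext v
  rw [← Real.exp_add]
  congr 1
  simp only []
  rw [inner_add_left, inner_smul_left, norm_add_sq_real, inner_smul_right, norm_smul]
  simp only [Real.norm_eq_abs, mul_pow, sq_abs, real_inner_self_eq_norm_sq, RCLike.conj_to_real]
  field_simp
  ring

theorem Lpl_ge {f : E → ℝ} {a b : ℝ} (ha : 0 < a) (hb : 0 < b) (hf : Measurable f)
    (h : ∀ u, a / 2 * ‖u‖ ^ 2 ≤ f u) (h' : ∀ u, f u ≤ b / 2 * ‖u‖ ^ 2) (w : E) :
    ‖w‖ ^ 2 / (2 * b) + Real.log (∫ v : E, Real.exp (-(b / 2 * ‖v‖ ^ 2))) ≤ Real.log (Lpl f w) := by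
  have hi : Integrable fun v : E => Real.exp (-(b / 2 * ‖v‖ ^ 2)) := by
    refine (integrable_Lpl hb (f := fun u : E => b / 2 * ‖u‖ ^ 2) (by fun_prop) (fun u => le_rfl) 0).congr
      (Eventually.of_forall fun u => ?_)
    simp
  have h1 : Lpl (fun u : E => b / 2 * ‖u‖ ^ 2) w ≤ Lpl f w := by
    unfold Lpl
    refine integral_mono (integrable_Lpl hb (by fun_prop) (fun u => le_rfl) w) (integrable_Lpl ha hf h w) fun u => ?_
    refine Real.exp_le_exp.2 ?_
    have := h' u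
    simp only
    linarith
  rw [Lpl_quad hb] at h1
  have h2 := Real.log_le_log (mul_pos (Real.exp_pos _) (integral_exp_pos hi)) h1
  rwa [Real.log_mul (Real.exp_pos _).ne' (integral_exp_pos hi).ne', Real.log_exp] at h2

theorem measurable_Lpl {f : E → ℝ} (hf : Measurable f) : Measurable (Lpl f) := by
  unfold Lpl
  have h1 : StronglyMeasurable (fun p : E × E => Real.exp (inner ℝ p.2 p.1 - f p.2)) := by
    refine Measurable.stronglyMeasurable ?_
    have : Measurable fun p : E × E => (inner ℝ p.2 p.1 : ℝ) := (continuous_snd.inner continuous_fst).measurable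
    exact Real.measurable_exp.comp (this.sub (hf.comp measurable_snd))
  exact (h1.integral_prod_right' (ν := volume)).measurable

/-- outer integral at level `k` -/
noncomputable def KO (k : ℝ) (x0 : E) (f : E → ℝ) : ℝ :=
  ∫ w : E, Real.exp (-((1 + 1 / k) * Real.log (Lpl f w)) - (Real.sqrt k)⁻¹ * inner ℝ x0 w)

/-- a Gaussian majorant -/
theorem integrable_maj {b : ℝ} (hb : 0 < b) (C D : ℝ) :
    Integrable fun w : E => Real.exp (C + D * ‖w‖ - ‖w‖ ^ 2 / (2 * b)) := by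
  have h1 : Integrable fun w : E => Real.exp (C + b * D ^ 2) * Real.exp (-((1 / (2 * b)) / 2 * ‖w‖ ^ 2)) := by
    refine Integrable.const_mul ?_ _
    refine (integrable_Lpl (a := 1 / (2 * b)) (by positivity) (f := fun u : E => (1 / (2 * b)) / 2 * ‖u‖ ^ 2)
      (by fun_prop) (fun u => le_rfl) 0).congr (Eventually.of_forall fun u => ?_)
    simp
  refine h1.mono' (by fun_prop) (Eventually.of_forall fun w => ?_)
  rw [Real.norm_eq_abs, abs_of_pos (Real.exp_pos _), ← Real.exp_add]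
  refine Real.exp_le_exp.2 ?_
  have h2 : D * ‖w‖ ≤ b * D ^ 2 + ‖w‖ ^ 2 / (4 * b) := by
    have h3 : 0 ≤ (2 * b * D - ‖w‖) ^ 2 / (4 * b) := by positivity
    have h4 : (2 * b * D - ‖w‖) ^ 2 / (4 * b) = b * D ^ 2 + ‖w‖ ^ 2 / (4 * b) - D * ‖w‖ := by
      field_simp
      ring
    linarith
  have h5 : 1 / (2 * b) / 2 * ‖w‖ ^ 2 = ‖w‖ ^ 2 / (4 * b) := by
    field_simp
    ring
  have h6 : ‖w‖ ^ 2 / (2 * b) = 2 * (‖w‖ ^ 2 / (4 * b)) := by
    field_simp
    ring
  rw [h5, h6]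
  linarith

theorem KO_bound {f : E → ℝ} {a b k : ℝ} (ha : 0 < a) (hb : 0 < b) (hk : 1 ≤ k) (hf : Measurable f)
    (h : ∀ u, a / 2 * ‖u‖ ^ 2 ≤ f u) (h' : ∀ u, f u ≤ b / 2 * ‖u‖ ^ 2) (x0 w : E) :
    -((1 + 1 / k) * Real.log (Lpl f w)) - (Real.sqrt k)⁻¹ * inner ℝ x0 w ≤
      2 * |Real.log (∫ v : E, Real.exp (-(b / 2 * ‖v‖ ^ 2)))| + ‖x0‖ * ‖w‖ - ‖w‖ ^ 2 / (2 * b) := by
  have h1 := Lpl_ge ha hb hf h h' w
  set cb := Real.log (∫ v : E, Real.exp (-(b / 2 * ‖v‖ ^ 2))) with hcb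
  have hk0 : 0 < k := by linarith
  have hq : 0 < 1 / k := by positivity
  have hq1 : 1 / k ≤ 1 := by rw [div_le_one hk0]; exact hk
  have h2 : (1 + 1 / k) * (‖w‖ ^ 2 / (2 * b) + cb) ≤ (1 + 1 / k) * Real.log (Lpl f w) :=
    mul_le_mul_of_nonneg_left h1 (by linarith)
  have h3 : ‖w‖ ^ 2 / (2 * b) - 2 * |cb| ≤ (1 + 1 / k) * (‖w‖ ^ 2 / (2 * b) + cb) := by
    have h4 : 0 ≤ ‖w‖ ^ 2 / (2 * b) := by positivity
    have h5 : -|cb| ≤ cb := neg_abs_le cb
    have h6 : 0 ≤ |cb| := abs_nonneg cb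
    nlinarith [mul_nonneg hq.le h4, mul_nonneg hq.le h6]
  have h7 : -((Real.sqrt k)⁻¹ * inner ℝ x0 w) ≤ ‖x0‖ * ‖w‖ := by
    have h8 : |inner ℝ x0 w| ≤ ‖x0‖ * ‖w‖ := abs_real_inner_le_norm x0 w
    have h9 : (Real.sqrt k)⁻¹ ≤ 1 := inv_le_one_of_one_le₀ (Real.one_le_sqrt.2 hk)
    have h10 : 0 ≤ (Real.sqrt k)⁻¹ := by positivity
    calc -((Real.sqrt k)⁻¹ * inner ℝ x0 w) ≤ |(Real.sqrt k)⁻¹ * inner ℝ x0 w| := neg_le_abs _
      _ = (Real.sqrt k)⁻¹ * |inner ℝ x0 w| := by rw [abs_mul, abs_of_nonneg h10]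
      _ ≤ 1 * (‖x0‖ * ‖w‖) := mul_le_mul h9 h8 (abs_nonneg _) zero_le_one
      _ = ‖x0‖ * ‖w‖ := one_mul _
  linarith

theorem measurable_KO_integrand {f : E → ℝ} (hf : Measurable f) (k : ℝ) (x0 : E) :
    Measurable fun w : E => Real.exp (-((1 + 1 / k) * Real.log (Lpl f w)) - (Real.sqrt k)⁻¹ * inner ℝ x0 w) := by
  have h1 : Measurable fun w : E => (inner ℝ x0 w : ℝ) := (continuous_const.inner continuous_id).measurable
  exact Real.measurable_exp.comp ((((Real.measurable_log.comp (measurable_Lpl hf)).const_mul _).neg).sub (h1.const_mul _))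

theorem integrable_KO {f : E → ℝ} {a b k : ℝ} (ha : 0 < a) (hb : 0 < b) (hk : 1 ≤ k) (hf : Measurable f)
    (h : ∀ u, a / 2 * ‖u‖ ^ 2 ≤ f u) (h' : ∀ u, f u ≤ b / 2 * ‖u‖ ^ 2) (x0 : E) :
    Integrable fun w : E => Real.exp (-((1 + 1 / k) * Real.log (Lpl f w)) - (Real.sqrt k)⁻¹ * inner ℝ x0 w) := by
  refine (integrable_maj hb (2 * |Real.log (∫ v : E, Real.exp (-(b / 2 * ‖v‖ ^ 2)))|) ‖x0‖).mono'
    (measurable_KO_integrand hf k x0).aestronglyMeasurable (Eventually.of_forall fun w => ?_)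
  rw [Real.norm_eq_abs, abs_of_pos (Real.exp_pos _)]
  exact Real.exp_le_exp.2 (KO_bound ha hb hk hf h h' x0 w)

/-- dominated convergence, outer integral -/
theorem tendsto_KO {f : ℕ → E → ℝ} {g : E → ℝ} {k : ℕ → ℝ} {a b : ℝ} (ha : 0 < a) (hb : 0 < b)
    (hk : ∀ j, 1 ≤ k j) (hkl : Tendsto k atTop atTop) (hf : ∀ j, Measurable (f j)) (hg : Measurable g)
    (h : ∀ j u, a / 2 * ‖u‖ ^ 2 ≤ f j u) (h' : ∀ j u, f j u ≤ b / 2 * ‖u‖ ^ 2)
    (hlim : ∀ u, Tendsto (fun j => f j u) atTop (𝓝 (g u))) (x0 : E) :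
    Tendsto (fun j => KO (k j) x0 (f j)) atTop (𝓝 (∫ w : E, (Lpl g w)⁻¹)) := by
  have hga : ∀ u, a / 2 * ‖u‖ ^ 2 ≤ g u := fun u => ge_of_tendsto' (hlim u) fun j => h j u
  have e1 : (fun w : E => (Lpl g w)⁻¹) = fun w : E => Real.exp (-Real.log (Lpl g w)) := by
    ext w
    rw [Real.exp_neg, Real.exp_log (Lpl_pos ha hg hga w)]
  rw [e1]
  unfold KO
  refine tendsto_integral_of_dominated_convergence
    (fun w : E => Real.exp (2 * |Real.log (∫ v : E, Real.exp (-(b / 2 * ‖v‖ ^ 2)))| + ‖x0‖ * ‖w‖ - ‖w‖ ^ 2 / (2 * b)))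
    (fun j => (measurable_KO_integrand (hf j) (k j) x0).aestronglyMeasurable) (integrable_maj hb _ _)
    (fun j => Eventually.of_forall fun w => ?_) (Eventually.of_forall fun w => ?_)
  · rw [Real.norm_eq_abs, abs_of_pos (Real.exp_pos _)]
    exact Real.exp_le_exp.2 (KO_bound ha hb (hk j) (hf j) (h j) (h' j) x0 w)
  · refine (Real.continuous_exp.tendsto _).comp ?_
    have h1 : Tendsto (fun j => Real.log (Lpl (f j) w)) atTop (𝓝 (Real.log (Lpl g w))) :=
      (Real.continuousAt_log (Lpl_pos ha hg hga w).ne').tendsto.comp (tendsto_Lpl ha hf h hlim w)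
    have h2 : Tendsto (fun j => 1 + 1 / k j) atTop (𝓝 (1 + 0)) :=
      tendsto_const_nhds.add (by simp only [one_div]; exact hkl.inv_tendsto_atTop)
    have h3 : Tendsto (fun j => (Real.sqrt (k j))⁻¹) atTop (𝓝 0) :=
      (Real.tendsto_sqrt_atTop.comp hkl).inv_tendsto_atTop
    have h4 := ((h2.mul h1).neg).sub (h3.mul_const (inner ℝ x0 w))
    simpa using h4

/-- the Gaussian identity: no Gaussian integral has to be computed -/
theorem gauss_det {S : E →L[ℝ] E} {a : ℝ} (ha : 0 < a) (hsym : ∀ v w, inner ℝ (S v) w = inner ℝ (S w) v)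
    (hpos : ∀ v, a * ‖v‖ ^ 2 ≤ inner ℝ (S v) v) :
    ∫ w : E, (Lpl (fun u : E => 1 / 2 * inner ℝ (S u) u) w)⁻¹ = |S.det| ∧ S.det ≠ 0 := by
  have hinj : Function.Injective (S : E →ₗ[ℝ] E) := by
    rw [← LinearMap.ker_eq_bot, LinearMap.ker_eq_bot']
    intro v hv
    have h1 := hpos v
    have h2 : S v = 0 := hv
    rw [h2, inner_zero_left] at h1
    have h3 : ‖v‖ ^ 2 ≤ 0 := by
      by_contra hcon
      push Not at hcon
      have := mul_pos ha hcon
      linarith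
    have h4 : ‖v‖ = 0 := by
      have := sq_nonneg ‖v‖
      exact pow_eq_zero_iff (two_ne_zero) |>.1 (le_antisymm h3 this)
    exact norm_eq_zero.1 h4
  have hbij : Function.Bijective (S : E →ₗ[ℝ] E) := ⟨hinj, LinearMap.injective_iff_surjective.1 hinj⟩
  have hdet : LinearMap.det (S : E →ₗ[ℝ] E) ≠ 0 := by
    intro h0
    have h1 := LinearMap.bot_lt_ker_of_det_eq_zero h0
    rw [LinearMap.ker_eq_bot.2 hinj] at h1
    exact lt_irrefl _ h1
  have hdet' : S.det = LinearMap.det (S : E →ₗ[ℝ] E) := rfl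
  set IS := ∫ v : E, Real.exp (-(1 / 2 * inner ℝ (S v) v)) with hIS
  have hmeas : Measurable fun u : E => 1 / 2 * (inner ℝ (S u) u : ℝ) :=
    ((S.continuous.inner continuous_id).measurable).const_mul _
  have hlow : ∀ u : E, a / 2 * ‖u‖ ^ 2 ≤ 1 / 2 * (inner ℝ (S u) u : ℝ) := fun u => by
    have := hpos u
    linarith
  have hIpos : 0 < IS := by
    refine integral_exp_pos ?_
    refine (integrable_Lpl ha hmeas hlow 0).congr (Eventually.of_forall fun u => ?_)
    simp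
  have key : ∀ v : E, Lpl (fun u : E => 1 / 2 * inner ℝ (S u) u) (S v) = Real.exp (1 / 2 * inner ℝ (S v) v) * IS := by
    intro p
    unfold Lpl
    rw [hIS, ← integral_const_mul, ← integral_add_right_eq_self (μ := (volume : Measure E)) _ p]
    congr 1
    ext v
    rw [← Real.exp_add]
    congr 1
    simp only []
    rw [map_add, inner_add_left, inner_add_left, inner_add_right, inner_add_right]
    have h1 : (inner ℝ v (S p) : ℝ) = inner ℝ (S v) p := by rw [real_inner_comm, hsym]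
    have h2 : (inner ℝ p (S p) : ℝ) = inner ℝ (S p) p := real_inner_comm _ _
    rw [h1, h2, hsym p v]
    ring
  have hmap := Measure.map_linearMap_addHaar_eq_smul_addHaar (μ := (volume : Measure E)) hdet
  have hmeasH : Measurable fun w : E => (Lpl (fun u : E => 1 / 2 * inner ℝ (S u) u) w)⁻¹ := (measurable_Lpl hmeas).inv
  have h1 : ∫ v : E, (Lpl (fun u : E => 1 / 2 * inner ℝ (S u) u) (S v))⁻¹
      = |(LinearMap.det (S : E →ₗ[ℝ] E))⁻¹| * ∫ w : E, (Lpl (fun u : E => 1 / 2 * inner ℝ (S u) u) w)⁻¹ := by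
    have h2 : ∫ v : E, (Lpl (fun u : E => 1 / 2 * inner ℝ (S u) u) ((S : E →ₗ[ℝ] E) v))⁻¹
        = ∫ w : E, (Lpl (fun u : E => 1 / 2 * inner ℝ (S u) u) w)⁻¹ ∂(Measure.map (S : E →ₗ[ℝ] E) volume) := by
      exact (integral_map S.continuous.measurable.aemeasurable hmeasH.aestronglyMeasurable).symm
    rw [hmap, integral_smul_measure, ENNReal.toReal_ofReal (abs_nonneg _), smul_eq_mul] at h2
    exact h2
  have h3 : ∫ v : E, (Lpl (fun u : E => 1 / 2 * inner ℝ (S u) u) (S v))⁻¹ = 1 := by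
    have h4 : (fun v : E => (Lpl (fun u : E => 1 / 2 * inner ℝ (S u) u) (S v))⁻¹)
        = fun v : E => IS⁻¹ * Real.exp (-(1 / 2 * inner ℝ (S v) v)) := by
      ext v
      rw [key, mul_inv, Real.exp_neg]
      ring
    rw [h4, integral_const_mul, ← hIS, inv_mul_cancel₀ hIpos.ne']
  rw [h3] at h1
  refine ⟨?_, by rw [hdet']; exact hdet⟩
  rw [hdet']
  have h5 : |(LinearMap.det (S : E →ₗ[ℝ] E))⁻¹| ≠ 0 := abs_ne_zero.2 (inv_ne_zero hdet)
  rw [abs_inv] at h1
  have h6 : |LinearMap.det (S : E →ₗ[ℝ] E)| ≠ 0 := abs_ne_zero.2 hdet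
  have h7 := congrArg (fun t => |LinearMap.det (S : E →ₗ[ℝ] E)| * t) h1
  simp only [mul_one] at h7
  rw [← mul_assoc, mul_inv_cancel₀ h6, one_mul] at h7
  exact h7.symm

/-- scaling and translation -/
theorem integral_scale (F : E → ℝ) {r : ℝ} (hr : 0 < r) (x0 : E) :
    ∫ x : E, F x = (r ^ Module.finrank ℝ E)⁻¹ * ∫ u : E, F (x0 + r⁻¹ • u) := by
  have h1 := Measure.integral_comp_smul (volume : Measure E) (fun x => F (x0 + x)) r⁻¹
  rw [integral_add_left_eq_self (μ := (volume : Measure E)) F x0] at h1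
  rw [h1, smul_eq_mul, ← mul_assoc, inv_pow, inv_inv, abs_of_pos (by positivity), inv_mul_cancel₀ (by positivity), one_mul]

/-- the localised potential -/
noncomputable def loc (k : ℝ) (c : E → ℝ) (x0 y0 : E) (u : E) : ℝ :=
  k * c (x0 + (Real.sqrt k)⁻¹ • u) - k * c x0 - Real.sqrt k * inner ℝ u y0

theorem phi_loc {k : ℝ} (hk : 0 < k) {c : E → ℝ} {x0 y0 : E} {a : ℝ} (ha : 0 < a) (hc : Measurable c)
    (h : ∀ u, a / 2 * ‖u‖ ^ 2 ≤ loc k c x0 y0 u) (w : E) :
    k * LK.phi k c (y0 + (Real.sqrt k)⁻¹ • w) = -(Module.finrank ℝ E * Real.log (Real.sqrt k))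
      + (k * inner ℝ x0 y0 + Real.sqrt k * inner ℝ x0 w - k * c x0) + Real.log (Lpl (loc k c x0 y0) w) := by
  have hr : 0 < Real.sqrt k := Real.sqrt_pos.2 hk
  have hrr : Real.sqrt k * Real.sqrt k = k := Real.mul_self_sqrt hk.le
  set r := Real.sqrt k with hrdef
  have hm : Measurable (loc k c x0 y0) := by
    unfold loc
    have h1 : Measurable fun u : E => (inner ℝ u y0 : ℝ) := (continuous_id.inner continuous_const).measurable
    have h2 : Measurable fun u : E => x0 + (Real.sqrt k)⁻¹ • u := by fun_prop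
    exact (((hc.comp h2).const_mul k).sub measurable_const).sub (h1.const_mul _)
  have hpos := Lpl_pos ha hm h w
  unfold LK.phi
  have e1 : ∫ x : E, Real.exp (k * inner ℝ x (y0 + r⁻¹ • w) - k * c x)
      = (r ^ Module.finrank ℝ E)⁻¹ * (Real.exp (k * inner ℝ x0 y0 + r * inner ℝ x0 w - k * c x0) * Lpl (loc k c x0 y0) w) := by
    rw [integral_scale _ hr x0]
    congr 1
    unfold Lpl
    rw [← integral_const_mul]
    congr 1
    ext u
    rw [← Real.exp_add]
    congr 1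
    unfold loc
    rw [← hrdef]
    simp only [inner_add_left, inner_add_right, inner_smul_left, inner_smul_right, RCLike.conj_to_real]
    have h3 : k * (r⁻¹ * (inner ℝ x0 w : ℝ)) = r * inner ℝ x0 w := by
      rw [← hrr]
      field_simp
    have h4 : k * (r⁻¹ * (inner ℝ u y0 : ℝ)) = r * inner ℝ u y0 := by
      rw [← hrr]
      field_simp
    have h5 : k * (r⁻¹ * (r⁻¹ * (inner ℝ u w : ℝ))) = inner ℝ u w := by
      rw [← hrr]
      field_simp
    linear_combination h3 + h4 + h5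
  rw [e1, Real.log_mul (by positivity) (by positivity), Real.log_inv, Real.log_pow,
    Real.log_mul (by positivity) hpos.ne', Real.log_exp]
  field_simp
  ring

/-- **the exact identity at level `k`** -/
theorem level_eq {k : ℝ} (hk : 1 ≤ k) {c : E → ℝ} {x0 y0 : E} {a b : ℝ} (ha : 0 < a) (hb : 0 < b) (hc : Measurable c)
    (h : ∀ u, a / 2 * ‖u‖ ^ 2 ≤ loc k c x0 y0 u) (h' : ∀ u, loc k c x0 y0 u ≤ b / 2 * ‖u‖ ^ 2) :
    k * c x0 - LK.Q k (LK.phi k c) x0 = inner ℝ x0 y0 - c x0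
      - Module.finrank ℝ E * (Real.log (Real.sqrt k) / k) - Real.log (KO k x0 (loc k c x0 y0)) := by
  have hk0 : 0 < k := by linarith
  have hr : 0 < Real.sqrt k := Real.sqrt_pos.2 hk0
  have hrr : Real.sqrt k * Real.sqrt k = k := Real.mul_self_sqrt hk0.le
  have hm : Measurable (loc k c x0 y0) := by
    unfold loc
    have h1 : Measurable fun u : E => (inner ℝ u y0 : ℝ) := (continuous_id.inner continuous_const).measurable
    have h2 : Measurable fun u : E => x0 + (Real.sqrt k)⁻¹ • u := by fun_prop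
    exact (((hc.comp h2).const_mul k).sub measurable_const).sub (h1.const_mul _)
  have hKpos : 0 < KO k x0 (loc k c x0 y0) := integral_exp_pos (integrable_KO ha hb hk hm h h' x0)
  set r := Real.sqrt k with hrdef
  set N : ℝ := (Module.finrank ℝ E : ℝ) with hN
  unfold LK.Q
  have e1 : ∫ y : E, Real.exp (k * inner ℝ x0 y - (k + 1) * LK.phi k c y)
      = (r ^ Module.finrank ℝ E)⁻¹ * (Real.exp ((1 + 1 / k) * (N * Real.log r) - inner ℝ x0 y0 + (k + 1) * c x0)
        * KO k x0 (loc k c x0 y0)) := by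
    rw [integral_scale _ hr y0]
    congr 1
    unfold KO
    rw [← integral_const_mul]
    congr 1
    ext w
    rw [← Real.exp_add]
    congr 1
    have h1 := phi_loc hk0 (y0 := y0) ha hc h w
    rw [← hrdef, ← hN] at h1
    have h2 : (k + 1) * LK.phi k c (y0 + r⁻¹ • w) = (1 + 1 / k) * (k * LK.phi k c (y0 + r⁻¹ • w)) := by
      field_simp
    rw [h2, h1, inner_add_right, inner_smul_right, ← hrdef]
    have h3 : k * (r⁻¹ * (inner ℝ x0 w : ℝ)) = r * inner ℝ x0 w := by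
      rw [← hrr]
      field_simp
    have h4 : (1 + 1 / k) * (r * (inner ℝ x0 w : ℝ)) = r * inner ℝ x0 w + r⁻¹ * inner ℝ x0 w := by
      rw [← hrr]
      field_simp
    have h5 : (1 + 1 / k) * (k * (inner ℝ x0 y0 : ℝ)) = k * inner ℝ x0 y0 + inner ℝ x0 y0 := by
      field_simp
    have h6 : (1 + 1 / k) * (k * c x0) = (k + 1) * c x0 := by
      field_simp
    linear_combination h3 - h4 - h5 + h6
  rw [e1, Real.log_mul (by positivity) (by positivity), Real.log_inv, Real.log_pow,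
    Real.log_mul (by positivity) hKpos.ne', Real.log_exp, ← hN]
  field_simp
  ring

end Vale.Agent.P227.M.MX
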