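import Vale.Agent.P227.M.LK.ClsGood
import Vale.Agent.P227.M.LK.TV
import Vale.Agent.P227.M.LK.RegLap
import Vale.Agent.P227.M.MX.Lap

/-! # P227/M/MX: the limit `k → ∞`, pointwise in `x`-space -/

open MeasureTheory Set Filter Topology

namespace Vale.Agent.P227.M.MX

section Ident

variable {E : Type*} [NormedAddCommGroup E] [InnerProductSpace ℝ E] [FiniteDimensional ℝ E]
  [MeasurableSpace E] [BorelSpace E]

/-- identification of the limit potential -/
theorem ident {V Wi : E → ℝ} (hV : Continuous V) (hWi : Continuous Wi) {W : ℕ → E → ℝ} {β : ℕ → ℝ}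
    (hVi : Integrable fun x => Real.exp (-V x)) (hWint : ∀ j, Integrable fun x => Real.exp (-W j x))
    (hlim : ∀ x, Tendsto (fun j => W j x - β j) atTop (𝓝 (Wi x)))
    {η : ℕ → ℝ} (hη : Tendsto η atTop (𝓝 0))
    (hL : ∀ j, ∫ x, |Real.exp (-W j x) - Real.exp (-V x)| ≤ η j) :
    ∃ t, ∀ x, V x = Wi x + t := by
  have h1 : Tendsto (fun j => eLpNorm ((fun x => Real.exp (-W j x)) - fun x => Real.exp (-V x)) 1
      (volume : Measure E)) atTop (𝓝 0) := by
    have h2 : ∀ j, eLpNorm ((fun x => Real.exp (-W j x)) - fun x => Real.exp (-V x)) 1 (volume : Measure E)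
        ≤ ENNReal.ofReal (η j) := by
      intro j
      rw [eLpNorm_one_eq_lintegral_enorm]
      have h3 := ofReal_integral_norm_eq_lintegral_enorm ((hWint j).sub hVi)
      rw [← h3]
      refine ENNReal.ofReal_le_ofReal ?_
      exact hL j
    have h4 : Tendsto (fun j => ENNReal.ofReal (η j)) atTop (𝓝 0) := by
      have := (ENNReal.continuous_ofReal.tendsto 0).comp hη
      rw [ENNReal.ofReal_zero] at this
      exact this
    exact tendsto_of_tendsto_of_tendsto_of_le_of_le tendsto_const_nhds h4 (fun j => bot_le) h2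
  have h5 : TendstoInMeasure (volume : Measure E) (fun j x => Real.exp (-W j x)) atTop (fun x => Real.exp (-V x)) :=
    tendstoInMeasure_of_tendsto_eLpNorm one_ne_zero (fun j => (hWint j).aestronglyMeasurable)
      hVi.aestronglyMeasurable h1
  obtain ⟨ns, hns, hae⟩ := h5.exists_seq_tendsto_ae
  have hae2 : ∀ᵐ x ∂(volume : Measure E), Tendsto (fun i => β (ns i)) atTop (𝓝 (V x - Wi x)) := by
    filter_upwards [hae] with x hx
    have h6 : Tendsto (fun i => W (ns i) x) atTop (𝓝 (V x)) := by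
      have h7 := (Real.continuousAt_log (Real.exp_pos (-V x)).ne').tendsto.comp hx
      have h8 : Tendsto (fun i => -(Real.log (Real.exp (-W (ns i) x)))) atTop (𝓝 (-Real.log (Real.exp (-V x)))) := h7.neg
      simpa using h8
    have h9 := h6.sub ((hlim x).comp hns.tendsto_atTop)
    refine h9.congr fun i => ?_
    simp
  obtain ⟨x1, hx1⟩ := hae2.exists
  refine ⟨V x1 - Wi x1, ?_⟩
  have h10 : (fun x => V x - Wi x) =ᵐ[volume] fun _ => V x1 - Wi x1 := by
    filter_upwards [hae2] with x hx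
    exact tendsto_nhds_unique hx hx1
  have h11 := Measure.eq_of_ae_eq h10 (hV.sub hWi) continuous_const
  intro x
  have := congrFun h11 x
  linarith

end Ident

/-- Taylor on `[0,1]` -/
theorem tay_low (g g1 g2 : ℝ → ℝ) (h1 : ∀ t, HasDerivAt g (g1 t) t) (h2 : ∀ t, HasDerivAt g1 (g2 t) t)
    (q : ℝ) (hq : ∀ t ∈ Icc (0 : ℝ) 1, q ≤ g2 t) : g 0 + g1 0 + q / 2 ≤ g 1 := by
  have hd : ∀ t, HasDerivAt (fun t => g1 t - q * t) (g2 t - q) t := fun t => by
    simpa using (h2 t).fun_sub ((hasDerivAt_id t).const_mul q)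
  have hm : MonotoneOn (fun t => g1 t - q * t) (Icc 0 1) := by
    refine monotoneOn_of_deriv_nonneg (convex_Icc 0 1) ?_ ?_ ?_
    · exact fun t _ => (hd t).continuousAt.continuousWithinAt
    · exact fun t _ => (hd t).differentiableAt.differentiableWithinAt
    · intro t ht
      rw [interior_Icc] at ht
      rw [(hd t).deriv]
      have := hq t (Ioo_subset_Icc_self ht)
      linarith
  have hk : ∀ t, HasDerivAt (fun t => g t - g1 0 * t - q / 2 * t ^ 2) (g1 t - g1 0 - q * t) t := by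
    intro t
    have h := ((h1 t).fun_sub ((hasDerivAt_id t).const_mul (g1 0))).fun_sub
      (((hasDerivAt_id t).pow 2).const_mul (q / 2))
    refine h.congr_deriv ?_
    simp
    ring
  have hmono : MonotoneOn (fun t => g t - g1 0 * t - q / 2 * t ^ 2) (Icc 0 1) := by
    refine monotoneOn_of_deriv_nonneg (convex_Icc 0 1) ?_ ?_ ?_
    · exact fun t _ => (hk t).continuousAt.continuousWithinAt
    · exact fun t _ => (hk t).differentiableAt.differentiableWithinAt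
    · intro t ht
      rw [interior_Icc] at ht
      rw [(hk t).deriv]
      have h3 := hm (left_mem_Icc.mpr zero_le_one) (Ioo_subset_Icc_self ht) ht.1.le
      simp only [mul_zero, sub_zero] at h3
      linarith
  have h5 := hmono (left_mem_Icc.mpr zero_le_one) (right_mem_Icc.mpr zero_le_one) zero_le_one
  simp only [mul_zero, sub_zero] at h5
  norm_num at h5
  linarith

theorem tay_up (g g1 g2 : ℝ → ℝ) (h1 : ∀ t, HasDerivAt g (g1 t) t) (h2 : ∀ t, HasDerivAt g1 (g2 t) t)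
    (q : ℝ) (hq : ∀ t ∈ Icc (0 : ℝ) 1, g2 t ≤ q) : g 1 ≤ g 0 + g1 0 + q / 2 := by
  have h := tay_low (fun t => - g t) (fun t => - g1 t) (fun t => - g2 t) (fun t => (h1 t).neg)
    (fun t => (h2 t).neg) (-q) (fun t ht => neg_le_neg (hq t ht))
  linarith

variable {n : ℕ}

/-- gradient vector -/
noncomputable def gv (f : E n → ℝ) (x : E n) : E n := (InnerProductSpace.toDual ℝ (E n)).symm (fderiv ℝ f x)

theorem inner_gv (f : E n → ℝ) (x u : E n) : inner ℝ u (gv f x) = fderiv ℝ f x u := by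
  rw [real_inner_comm]
  unfold gv
  exact InnerProductSpace.toDual_symm_apply

/-- Hessian as a linear map -/
noncomputable def hv (f : E n → ℝ) (x : E n) : E n →L[ℝ] E n :=
  LinearMap.toContinuousLinearMap
    { toFun := fun u => (InnerProductSpace.toDual ℝ (E n)).symm (fderiv ℝ (fderiv ℝ f) x u)
      map_add' := by intro u v; simp
      map_smul' := by intro r u; simp }

theorem inner_hv (f : E n → ℝ) (x u v : E n) : inner ℝ (hv f x u) v = fderiv ℝ (fderiv ℝ f) x u v := by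
  have h : hv f x u = (InnerProductSpace.toDual ℝ (E n)).symm (fderiv ℝ (fderiv ℝ f) x u) := rfl
  rw [h]
  exact InnerProductSpace.toDual_symm_apply

theorem det_hv {f : E n → ℝ} (hf : ContDiff ℝ 2 f) (x : E n) : (hv f x).det = (hess f x).det := by
  have h1 : LinearMap.toMatrix (EuclideanSpace.basisFun (Fin n) ℝ).toBasis
      (EuclideanSpace.basisFun (Fin n) ℝ).toBasis (hv f x : E n →ₗ[ℝ] E n) = (hess f x).transpose := by
    ext i j
    rw [LinearMap.toMatrix_apply, Matrix.transpose_apply, RL983.hess_apply hf]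
    have h2 := inner_hv f x (ei j) (ei i)
    rw [← h2]
    have h3 : inner ℝ (hv f x (ei j)) (ei i) = (hv f x (ei j)) i := by
      rw [ei, ei, EuclideanSpace.inner_single_right]
      simp
    rw [h3]
    simp [ei]
  rw [ContinuousLinearMap.det, ← LinearMap.det_toMatrix (EuclideanSpace.basisFun (Fin n) ℝ).toBasis, h1,
    Matrix.det_transpose]

theorem loc_eq {k : ℝ} (hk : 0 < k) (c : E n → ℝ) (x0 u : E n) :
    loc k c x0 (gv c x0) u = k * (c (x0 + (Real.sqrt k)⁻¹ • u) - c x0 - fderiv ℝ c x0 ((Real.sqrt k)⁻¹ • u)) := by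
  unfold loc
  have hr : 0 < Real.sqrt k := Real.sqrt_pos.2 hk
  have hrr : Real.sqrt k * Real.sqrt k = k := Real.mul_self_sqrt hk.le
  rw [inner_gv, map_smul, smul_eq_mul]
  have h3 : k * ((Real.sqrt k)⁻¹ * fderiv ℝ c x0 u) = Real.sqrt k * fderiv ℝ c x0 u := by
    nth_rewrite 1 [← hrr]
    field_simp
  linear_combination h3

theorem loc_low {k : ℝ} (hk : 0 < k) {c : E n → ℝ} {a b : ℝ} (hc : Reg c a b) (x0 u : E n) :
    a / 2 * ‖u‖ ^ 2 ≤ loc k c x0 (gv c x0) u := by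
  rw [loc_eq hk]
  have h1 := RL983.reg_low hc x0 ((Real.sqrt k)⁻¹ • u)
  have h2 : ‖(Real.sqrt k)⁻¹ • u‖ ^ 2 = k⁻¹ * ‖u‖ ^ 2 := by
    rw [norm_smul, mul_pow, norm_inv, Real.norm_eq_abs, abs_of_nonneg (Real.sqrt_nonneg k), inv_pow, Real.sq_sqrt hk.le]
  rw [h2] at h1
  have h3 : a / 2 * ‖u‖ ^ 2 = k * (a / 2 * (k⁻¹ * ‖u‖ ^ 2)) := by field_simp
  rw [h3]
  exact mul_le_mul_of_nonneg_left (by linarith) hk.le

theorem loc_up {k : ℝ} (hk : 0 < k) {c : E n → ℝ} {a b : ℝ} (hc : Reg c a b) (x0 u : E n) :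
    loc k c x0 (gv c x0) u ≤ b / 2 * ‖u‖ ^ 2 := by
  rw [loc_eq hk]
  have h1 := RL983.reg_up hc x0 ((Real.sqrt k)⁻¹ • u)
  have h2 : ‖(Real.sqrt k)⁻¹ • u‖ ^ 2 = k⁻¹ * ‖u‖ ^ 2 := by
    rw [norm_smul, mul_pow, norm_inv, Real.norm_eq_abs, abs_of_nonneg (Real.sqrt_nonneg k), inv_pow, Real.sq_sqrt hk.le]
  rw [h2] at h1
  have h3 : b / 2 * ‖u‖ ^ 2 = k * (b / 2 * (k⁻¹ * ‖u‖ ^ 2)) := by field_simp
  rw [h3]
  exact mul_le_mul_of_nonneg_left (by linarith) hk.le

/-- second-order Taylor with Lipschitz Hessian -/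
theorem taylor2 {c : E n → ℝ} (hc : ContDiff ℝ 2 c) {L : ℝ}
    (hL : ∀ x y, ‖fderiv ℝ (fderiv ℝ c) x - fderiv ℝ (fderiv ℝ c) y‖ ≤ L * ‖x - y‖) (hL0 : 0 ≤ L) (x h : E n) :
    |c (x + h) - c x - fderiv ℝ c x h - 1 / 2 * fderiv ℝ (fderiv ℝ c) x h h| ≤ L / 2 * ‖h‖ ^ 3 := by
  have hq : ∀ t ∈ Icc (0 : ℝ) 1, |fderiv ℝ (fderiv ℝ c) (x + t • h) h h - fderiv ℝ (fderiv ℝ c) x h h| ≤ L * ‖h‖ ^ 3 := by
    intro t ht
    have h1 : fderiv ℝ (fderiv ℝ c) (x + t • h) h h - fderiv ℝ (fderiv ℝ c) x h h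
        = (fderiv ℝ (fderiv ℝ c) (x + t • h) - fderiv ℝ (fderiv ℝ c) x) h h := by
      simp
    rw [h1, ← Real.norm_eq_abs]
    have h2 := hL (x + t • h) x
    have h3 : ‖x + t • h - x‖ ≤ ‖h‖ := by
      rw [add_sub_cancel_left, norm_smul, Real.norm_eq_abs, abs_of_nonneg ht.1]
      have := norm_nonneg h
      nlinarith [ht.2]
    calc ‖(fderiv ℝ (fderiv ℝ c) (x + t • h) - fderiv ℝ (fderiv ℝ c) x) h h‖
        ≤ ‖(fderiv ℝ (fderiv ℝ c) (x + t • h) - fderiv ℝ (fderiv ℝ c) x) h‖ * ‖h‖ := ContinuousLinearMap.le_opNorm _ _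
      _ ≤ (‖fderiv ℝ (fderiv ℝ c) (x + t • h) - fderiv ℝ (fderiv ℝ c) x‖ * ‖h‖) * ‖h‖ :=
          mul_le_mul_of_nonneg_right (ContinuousLinearMap.le_opNorm _ _) (norm_nonneg _)
      _ ≤ ((L * ‖h‖) * ‖h‖) * ‖h‖ := by
          refine mul_le_mul_of_nonneg_right (mul_le_mul_of_nonneg_right ?_ (norm_nonneg _)) (norm_nonneg _)
          exact h2.trans (mul_le_mul_of_nonneg_left h3 hL0)
      _ = L * ‖h‖ ^ 3 := by ring
  have h4 := tay_low (fun t => c (x + t • h)) _ _ (RL983.line1 hc x h) (RL983.line2 hc x h)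
    (fderiv ℝ (fderiv ℝ c) x h h - L * ‖h‖ ^ 3) (fun t ht => by
      have := (abs_le.1 (hq t ht)).1
      linarith)
  have h5 := tay_up (fun t => c (x + t • h)) _ _ (RL983.line1 hc x h) (RL983.line2 hc x h)
    (fderiv ℝ (fderiv ℝ c) x h h + L * ‖h‖ ^ 3) (fun t ht => by
      have := (abs_le.1 (hq t ht)).2
      linarith)
  simp only [zero_smul, add_zero, one_smul] at h4 h5
  rw [abs_le]
  constructor <;> linarith

theorem loc_approx {k : ℝ} (hk : 0 < k) {c : E n → ℝ} (hc : ContDiff ℝ 2 c) {L : ℝ}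
    (hL : ∀ x y, ‖fderiv ℝ (fderiv ℝ c) x - fderiv ℝ (fderiv ℝ c) y‖ ≤ L * ‖x - y‖) (hL0 : 0 ≤ L) (x0 u : E n) :
    |loc k c x0 (gv c x0) u - 1 / 2 * fderiv ℝ (fderiv ℝ c) x0 u u| ≤ L / 2 * ‖u‖ ^ 3 * (Real.sqrt k)⁻¹ := by
  have hr : 0 < Real.sqrt k := Real.sqrt_pos.2 hk
  have hrr : Real.sqrt k * Real.sqrt k = k := Real.mul_self_sqrt hk.le
  have h1 := taylor2 hc hL hL0 x0 ((Real.sqrt k)⁻¹ • u)
  have h2 : loc k c x0 (gv c x0) u - 1 / 2 * fderiv ℝ (fderiv ℝ c) x0 u u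
      = k * (c (x0 + (Real.sqrt k)⁻¹ • u) - c x0 - fderiv ℝ c x0 ((Real.sqrt k)⁻¹ • u)
        - 1 / 2 * fderiv ℝ (fderiv ℝ c) x0 ((Real.sqrt k)⁻¹ • u) ((Real.sqrt k)⁻¹ • u)) := by
    rw [loc_eq hk]
    have h3 : fderiv ℝ (fderiv ℝ c) x0 ((Real.sqrt k)⁻¹ • u) ((Real.sqrt k)⁻¹ • u)
        = k⁻¹ * fderiv ℝ (fderiv ℝ c) x0 u u := by
      have h5 : (Real.sqrt k)⁻¹ * (Real.sqrt k)⁻¹ = k⁻¹ := by rw [← mul_inv, hrr]
      simp only [map_smul, smul_apply, smul_eq_mul]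
      rw [← mul_assoc, h5]
    rw [h3]
    field_simp
  rw [h2, abs_mul, abs_of_pos hk]
  have h4 : L / 2 * ‖u‖ ^ 3 * (Real.sqrt k)⁻¹ = k * (L / 2 * ‖(Real.sqrt k)⁻¹ • u‖ ^ 3) := by
    rw [norm_smul, norm_inv, Real.norm_eq_abs, abs_of_pos hr]
    nth_rewrite 2 [← hrr]
    field_simp
  rw [h4]
  exact mul_le_mul_of_nonneg_left h1 hk.le

/-- **the pointwise limit of the level-`k` potentials** -/
theorem limit_pt {c : ℕ → E n → ℝ} {k : ℕ → ℝ} {ψ : E n → ℝ} {a b L : ℝ} (ha : 0 < a) (hb : 0 < b)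
    (hL0 : 0 ≤ L) (hk : ∀ j, 1 ≤ k j) (hkl : Tendsto k atTop atTop) (hc : ∀ j, Reg (c j) a b)
    (hLip : ∀ j x y, ‖fderiv ℝ (fderiv ℝ (c j)) x - fderiv ℝ (fderiv ℝ (c j)) y‖ ≤ L * ‖x - y‖)
    (hψ : ContDiff ℝ 2 ψ)
    (h0 : ∀ x, Tendsto (fun j => c j x - c j 0) atTop (𝓝 (ψ x)))
    (h1 : ∀ x, Tendsto (fun j => fderiv ℝ (c j) x) atTop (𝓝 (fderiv ℝ ψ x)))
    (h2 : ∀ x, Tendsto (fun j => fderiv ℝ (fderiv ℝ (c j)) x) atTop (𝓝 (fderiv ℝ (fderiv ℝ ψ) x))) (x0 : E n) :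
    Tendsto (fun j => k j * c j x0 - LK.Q (k j) (LK.phi (k j) (c j)) x0 + c j 0) atTop
      (𝓝 ((∑ i, x0 i * pd i ψ x0) - ψ x0 - Real.log (hess ψ x0).det)) := by
  have hk0 : ∀ j, 0 < k j := fun j => lt_of_lt_of_le one_pos (hk j)
  have hcc : ∀ j, ContDiff ℝ 2 (c j) := fun j => RL983.reg_c2 (hc j)
  have hcm : ∀ j, Measurable (c j) := fun j => (hc j).smooth.continuous.measurable
  have hlm : ∀ j, Measurable (loc (k j) (c j) x0 (gv (c j) x0)) := by
    intro j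
    unfold loc
    have h1 : Measurable fun u : E n => (inner ℝ u (gv (c j) x0) : ℝ) := (continuous_id.inner continuous_const).measurable
    have h2 : Measurable fun u : E n => x0 + (Real.sqrt (k j))⁻¹ • u := by fun_prop
    exact ((((hcm j).comp h2).const_mul _).sub measurable_const).sub (h1.const_mul _)
  have hinvr : Tendsto (fun j => (Real.sqrt (k j))⁻¹) atTop (𝓝 0) :=
    (Real.tendsto_sqrt_atTop.comp hkl).inv_tendsto_atTop
  have happ : ∀ (x u v : E n), Tendsto (fun j => fderiv ℝ (fderiv ℝ (c j)) x u v) atTop (𝓝 (fderiv ℝ (fderiv ℝ ψ) x u v)) := by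
    intro x u v
    have e1 := ((ContinuousLinearMap.apply ℝ (E n →L[ℝ] ℝ) u).continuous.tendsto _).comp (h2 x)
    have e2 := ((ContinuousLinearMap.apply ℝ ℝ v).continuous.tendsto _).comp e1
    exact e2
  have hloc : ∀ u, Tendsto (fun j => loc (k j) (c j) x0 (gv (c j) x0) u) atTop
      (𝓝 (1 / 2 * inner ℝ (hv ψ x0 u) u)) := by
    intro u
    rw [inner_hv]
    have e1 : Tendsto (fun j => 1 / 2 * fderiv ℝ (fderiv ℝ (c j)) x0 u u) atTop
        (𝓝 (1 / 2 * fderiv ℝ (fderiv ℝ ψ) x0 u u)) := (happ x0 u u).const_mul _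
    have e2 : Tendsto (fun j => loc (k j) (c j) x0 (gv (c j) x0) u - 1 / 2 * fderiv ℝ (fderiv ℝ (c j)) x0 u u)
        atTop (𝓝 0) := by
      refine squeeze_zero_norm (a := fun j => L / 2 * ‖u‖ ^ 3 * (Real.sqrt (k j))⁻¹) (fun j => ?_) ?_
      · rw [Real.norm_eq_abs]
        exact loc_approx (hk0 j) (hcc j) (hLip j) hL0 x0 u
      · simpa using hinvr.const_mul (L / 2 * ‖u‖ ^ 3)
    have e3 := e2.add e1
    rw [zero_add] at e3
    refine e3.congr fun j => ?_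
    ring
  have hsym : ∀ v w, inner ℝ (hv ψ x0 v) w = inner ℝ (hv ψ x0 w) v := by
    intro v w
    rw [inner_hv, inner_hv]
    have hs : IsSymmSndFDerivAt ℝ ψ x0 := hψ.contDiffAt.isSymmSndFDerivAt (by simp)
    exact hs v w
  have hpos : ∀ v, a * ‖v‖ ^ 2 ≤ inner ℝ (hv ψ x0 v) v := by
    intro v
    rw [inner_hv]
    refine ge_of_tendsto' (happ x0 v v) fun j => ?_
    have := (hc j).lower x0 v
    rwa [RL983.qf_hess (hcc j)] at this
  obtain ⟨hgd, hd0⟩ := gauss_det ha hsym hpos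
  have hKO := tendsto_KO ha hb hk hkl hlm (g := fun u => 1 / 2 * inner ℝ (hv ψ x0 u) u)
    (((hv ψ x0).continuous.inner continuous_id).measurable.const_mul _)
    (fun j u => loc_low (hk0 j) (hc j) x0 u) (fun j u => loc_up (hk0 j) (hc j) x0 u) hloc x0
  rw [hgd] at hKO
  have hlogK : Tendsto (fun j => Real.log (KO (k j) x0 (loc (k j) (c j) x0 (gv (c j) x0)))) atTop
      (𝓝 (Real.log (hess ψ x0).det)) := by
    have e1 := (Real.continuousAt_log (abs_ne_zero.2 hd0)).tendsto.comp hKO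
    rw [Real.log_abs, det_hv hψ] at e1
    exact e1
  have hlk : Tendsto (fun j => Real.log (Real.sqrt (k j)) / k j) atTop (𝓝 0) := by
    have e1 : Tendsto (fun x : ℝ => Real.log x ^ 1 / (1 * x + 0)) atTop (𝓝 0) :=
      Real.tendsto_pow_log_div_mul_add_atTop 1 0 1 one_ne_zero
    have e2 := (e1.comp hkl).const_mul (1 / 2)
    rw [mul_zero] at e2
    refine e2.congr fun j => ?_
    simp only [Function.comp, pow_one, one_mul, add_zero]
    rw [Real.log_sqrt (hk0 j).le]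
    ring
  have hin : Tendsto (fun j => inner ℝ x0 (gv (c j) x0)) atTop (𝓝 (∑ i, x0 i * pd i ψ x0)) := by
    rw [← fderiv_eq_sum]
    have e1 := ((ContinuousLinearMap.apply ℝ ℝ x0).continuous.tendsto _).comp (h1 x0)
    refine Tendsto.congr (fun j => ?_) e1
    rw [inner_gv]
    rfl
  have hfin := ((hin.sub (h0 x0)).sub (hlk.const_mul (Module.finrank ℝ (E n) : ℝ))).sub hlogK
  rw [mul_zero, sub_zero] at hfin
  refine hfin.congr fun j => ?_
  rw [level_eq (hk j) ha hb (hcm j) (fun u => loc_low (hk0 j) (hc j) x0 u) (fun u => loc_up (hk0 j) (hc j) x0 u)]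
  ring

end Vale.Agent.P227.M.MX
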