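import Vale.Agent.P227.M.MX.Lim
import Vale.Agent.P227.M.AA.AA
import Vale.Agent.P227.M.SC.Pol

/-! # P227/M/MX: `StmtMM` from `StmtSC` and the regularity of the log-Laplace transform -/

open MeasureTheory Set Filter Topology

namespace Vale.Agent.P227.M.MX

section L1

variable {E : Type*} [NormedAddCommGroup E] [InnerProductSpace ℝ E] [FiniteDimensional ℝ E]
  [MeasurableSpace E] [BorelSpace E]

theorem l1_of_KL {V W : E → ℝ} {η : ℝ} (hη : 0 < η) (hVm : Measurable V) (hWm : Measurable W)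
    (hV : Integrable (fun x => Real.exp (-V x))) (hW : Integrable (fun x => Real.exp (-W x)))
    (hV1 : ∫ x, Real.exp (-V x) = 1) (hW1 : ∫ x, Real.exp (-W x) = 1)
    (hKi : Integrable (fun x => (W x - V x) * Real.exp (-V x)))
    (hK : ∫ x, (W x - V x) * Real.exp (-V x) ≤ η ^ 2) :
    ∫ x, |Real.exp (-W x) - Real.exp (-V x)| ≤ 2 * η := by
  classical
  set F : E → ℝ := fun x => if Real.exp (-V x) ≤ Real.exp (-W x) then 1 else -1 with hF
  have hFm : Measurable F := by
    refine Measurable.ite (measurableSet_le (Real.measurable_exp.comp hVm.neg) (Real.measurable_exp.comp hWm.neg))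
      measurable_const measurable_const
  have hF1 : ∀ x, |F x| ≤ 1 := by
    intro x
    simp only [hF]
    split_ifs <;> simp
  have h1 := LK.abs_sub_le_of_KL hη hV hW hV1 hW1 hKi hK hFm.aestronglyMeasurable zero_le_one hF1
  have hFW : Integrable (fun x => F x * Real.exp (-W x)) := by
    refine (hW.const_mul 1).mono' (hFm.aestronglyMeasurable.mul hW.aestronglyMeasurable) (Eventually.of_forall fun x => ?_)
    rw [Real.norm_eq_abs, abs_mul, abs_of_pos (Real.exp_pos _)]
    exact mul_le_mul_of_nonneg_right (hF1 x) (Real.exp_pos _).le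
  have hFV : Integrable (fun x => F x * Real.exp (-V x)) := by
    refine (hV.const_mul 1).mono' (hFm.aestronglyMeasurable.mul hV.aestronglyMeasurable) (Eventually.of_forall fun x => ?_)
    rw [Real.norm_eq_abs, abs_mul, abs_of_pos (Real.exp_pos _)]
    exact mul_le_mul_of_nonneg_right (hF1 x) (Real.exp_pos _).le
  rw [← integral_sub hFW hFV] at h1
  have h2 : (fun x => F x * Real.exp (-W x) - F x * Real.exp (-V x)) = fun x => |Real.exp (-W x) - Real.exp (-V x)| := by
    ext x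
    simp only [hF]
    split_ifs with h
    · rw [abs_of_nonneg (sub_nonneg.2 h)]
      ring
    · rw [abs_of_neg (sub_neg.2 (not_le.1 h))]
      ring
  rw [h2] at h1
  calc _ ≤ _ := le_abs_self _
    _ ≤ _ := h1
    _ = _ := by ring

end L1

variable {n : ℕ}

theorem pd_add_const (f : E n → ℝ) (t : ℝ) (i : Fin n) : pd i (fun x => f x + t) = pd i f := by
  funext x
  unfold pd
  rw [fderiv_add_const]

theorem hess_add_const (f : E n → ℝ) (t : ℝ) : hess (fun x => f x + t) = hess f := by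
  funext x i j
  unfold hess
  rw [pd_add_const]

theorem nice_add_const {V : E n → ℝ} {c C : ℝ} (hV : Nice V c C) (t : ℝ) : Nice (fun x => V x + t) c C where
  c_pos := hV.c_pos
  smooth := hV.smooth.add contDiff_const
  lower x v := by rw [hess_add_const]; exact hV.lower x v
  upper x v := by rw [hess_add_const]; exact hV.upper x v
  bdd k hk := by
    obtain ⟨B, hB⟩ := hV.bdd k hk
    refine ⟨B, fun x => ?_⟩
    have hi : (k : WithTop ℕ∞) ≤ (⊤ : ℕ∞) := by exact_mod_cast le_top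
    have e : (fun x => V x + t) = V + fun _ => t := rfl
    rw [e, iteratedFDeriv_add_apply (hV.smooth.of_le hi).contDiffAt contDiff_const.contDiffAt,
      iteratedFDeriv_const_of_ne (by omega)]
    simpa using hB x
  even x := by simp only [hV.even]

theorem hess_det_ne {ψ : E n → ℝ} (hψ : ContDiff ℝ 2 ψ) {a : ℝ} (ha : 0 < a) (x : E n)
    (hlow : ∀ v, a * ‖v‖ ^ 2 ≤ fderiv ℝ (fderiv ℝ ψ) x v v) : (hess ψ x).det ≠ 0 := by
  rw [← det_hv hψ]
  refine (gauss_det ha (fun v w => ?_) (fun v => ?_)).2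
  · rw [inner_hv, inner_hv]
    have hs : IsSymmSndFDerivAt ℝ ψ x := hψ.contDiffAt.isSymmSndFDerivAt (by simp)
    exact hs v w
  · rw [inner_hv]
    exact hlow v

/-- norm of a symmetric form from its quadratic form -/
theorem norm_le_of_quad {B : E n →L[ℝ] E n →L[ℝ] ℝ} (hs : ∀ u v, B u v = B v u) {C : ℝ} (hC : 0 ≤ C)
    (h0 : ∀ v, 0 ≤ B v v) (h1 : ∀ v, B v v ≤ C * ‖v‖ ^ 2) : ‖B‖ ≤ C := by
  have hcs : ∀ u v, (B u v) ^ 2 ≤ B u u * B v v := by
    intro u v
    have key : ∀ t : ℝ, 0 ≤ B v v * (t * t) + 2 * B u v * t + B u u := by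
      intro t
      have h2 := h0 (u + t • v)
      simp only [map_add, map_smul, add_apply, smul_apply, smul_eq_mul] at h2
      rw [hs v u] at h2
      linarith
    have h3 := discrim_le_zero key
    unfold discrim at h3
    nlinarith
  refine ContinuousLinearMap.opNorm_le_bound _ hC fun u => ?_
  refine ContinuousLinearMap.opNorm_le_bound _ (by positivity) fun v => ?_
  rw [Real.norm_eq_abs]
  refine abs_le_of_sq_le_sq ?_ (by positivity)
  calc (B u v) ^ 2 ≤ B u u * B v v := hcs u v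
    _ ≤ (C * ‖u‖ ^ 2) * (C * ‖v‖ ^ 2) := mul_le_mul (h1 u) (h1 v) (h0 v) (by positivity)
    _ = (C * ‖u‖ * ‖v‖) ^ 2 := by ring

/-- Hessians in the class are uniformly Lipschitz -/
theorem cls_lip {c0 C0 m k : ℝ} {c : E n → ℝ} (hC0 : 0 < C0) (hk : 1 ≤ k) (hm : 0 ≤ m)
    (h : LK.B136.Cls c0 C0 m k c) (x y : E n) :
    ‖fderiv ℝ (fderiv ℝ c) x - fderiv ℝ (fderiv ℝ c) y‖
      ≤ (9 / 2 * (2 * m * Real.sqrt (2 * C0) ^ 3)) * ‖x - y‖ := by
  have hk0 : 0 < k := by linarith
  have h1 := LK.B136.selfConc_mul (h.reg' hk0) h.sc (lam := 1 / k) (by positivity)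
  have e1 : (fun x => 1 / k * (k * c x)) = c := by
    funext x
    field_simp
  have e2 : m / Real.sqrt k / Real.sqrt (1 / k) = m := by
    have hsq : 0 < Real.sqrt k := Real.sqrt_pos.2 hk0
    rw [one_div, Real.sqrt_inv]
    field_simp
  rw [e1, e2] at h1
  have hc3 : ContDiff ℝ 3 c := LK.B136.smooth_three h.reg.smooth
  have hup : C0 * (k + 1) / k ≤ 2 * C0 := by
    rw [div_le_iff₀ hk0]
    nlinarith
  have h2 : ∀ x v : E n, |iteratedDeriv 3 (fun t : ℝ => c (x + t • v)) 0| ≤ 2 * m * Real.sqrt (2 * C0) ^ 3 * ‖v‖ ^ 3 := by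
    intro x v
    have h3 := LK.B136.Reg.l2_upper h.reg x v
    have h4 := LK.B136.Reg.l2_nonneg h.reg x v
    have h5 := h1 x v
    unfold LK.B136.l2 at h3 h4
    rw [LK.B136.rpow_th h4] at h5
    have h6 : Real.sqrt (iteratedDeriv 2 (fun t : ℝ => c (x + t • v)) 0) ≤ Real.sqrt (2 * C0) * ‖v‖ := by
      refine Real.sqrt_le_iff.2 ⟨by positivity, ?_⟩
      rw [mul_pow, Real.sq_sqrt (by positivity)]
      exact h3.trans (mul_le_mul_of_nonneg_right hup (by positivity))
    calc _ ≤ _ := h5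
      _ ≤ 2 * m * (Real.sqrt (2 * C0) * ‖v‖) ^ 3 :=
        mul_le_mul_of_nonneg_left (pow_le_pow_left₀ (Real.sqrt_nonneg _) h6 3) (by positivity)
      _ = _ := by ring
  have h7 := SC.Pol.hess_lipschitz hc3 (by positivity) h2
  have h8 := h7.dist_le_mul x y
  rw [dist_eq_norm, dist_eq_norm, Real.coe_toNNReal _ (by positivity)] at h8
  exact h8

theorem hess_lip_of {g : E n → ℝ} (hgC : ContDiff ℝ 2 g) {L : ℝ} {x y : E n}
    (h1 : ‖fderiv ℝ (fderiv ℝ g) x - fderiv ℝ (fderiv ℝ g) y‖ ≤ L * ‖x - y‖) (i j : Fin n) :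
    |hess g x i j - hess g y i j| ≤ L * ‖x - y‖ := by
  rw [RL983.hess_apply hgC, RL983.hess_apply hgC]
  have h2 : fderiv ℝ (fderiv ℝ g) x (ei i) (ei j) - fderiv ℝ (fderiv ℝ g) y (ei i) (ei j)
      = (fderiv ℝ (fderiv ℝ g) x - fderiv ℝ (fderiv ℝ g) y) (ei i) (ei j) := by
    simp
  rw [h2, ← Real.norm_eq_abs]
  calc _ ≤ ‖(fderiv ℝ (fderiv ℝ g) x - fderiv ℝ (fderiv ℝ g) y) (ei i)‖ * ‖(ei j : E n)‖ :=
        ContinuousLinearMap.le_opNorm _ _
    _ ≤ (‖fderiv ℝ (fderiv ℝ g) x - fderiv ℝ (fderiv ℝ g) y‖ * ‖(ei i : E n)‖) * ‖(ei j : E n)‖ :=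
        mul_le_mul_of_nonneg_right (ContinuousLinearMap.le_opNorm _ _) (norm_nonneg _)
    _ = ‖fderiv ℝ (fderiv ℝ g) x - fderiv ℝ (fderiv ℝ g) y‖ := by rw [norm_ei, norm_ei]; ring
    _ ≤ _ := h1

theorem mm_pos (hSC : StmtSC) (hR : LK.B136.LogLapReg) {V : E n → ℝ} {c0 C0 : ℝ} (hV : Nice V c0 C0) (hC0 : 0 < C0)
    (hV1 : ∫ x : E n, Real.exp (-V x) = 1) : ∃ (ψ : E n → ℝ) (M : ℝ), MM ψ V c0 C0 M := by
  have hc0 := hV.c_pos
  obtain ⟨m, hm, H⟩ := LK.B136.exists_cls hSC hR hV hC0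
  set k : ℕ → ℝ := fun j => max 1 (m ^ 2) + j with hkdef
  have hk1 : ∀ j, 1 ≤ k j := fun j => by
    have := le_max_left 1 (m ^ 2)
    have h2 : (0 : ℝ) ≤ j := Nat.cast_nonneg j
    simp only [hkdef]
    linarith
  have hmk : ∀ j, m ^ 2 ≤ k j := fun j => by
    have := le_max_right 1 (m ^ 2)
    have h2 : (0 : ℝ) ≤ j := Nat.cast_nonneg j
    simp only [hkdef]
    linarith
  have hk0 : ∀ j, 0 < k j := fun j => lt_of_lt_of_le one_pos (hk1 j)
  have hkl : Tendsto k atTop atTop := tendsto_atTop_add_const_left _ _ tendsto_natCast_atTop_atTop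
  have key : ∀ j : ℕ, ∃ c : E n → ℝ, LK.B136.Cls c0 C0 m (k j) c ∧ LK.B136.Cls c0 C0 m (k j) (LK.B136.TK V (k j) c) ∧
      LK.KL V (k j) c ≤ (1 / ((j : ℝ) + 1)) ^ 2 := by
    intro j
    obtain ⟨h1, h2, h3⟩ := H (k j) (hk0 j) (hmk j)
    have hi : ∀ {f : E n → ℝ}, Gr f → Integrable fun x : E n => f x * Real.exp (-V x) := fun hf =>
      hV.toReg.integrable_gr hf
    have hkj := hk0 j
    obtain ⟨c, hc, hKL⟩ := LK.exists_KL_le (V := V) (k := k j) (a := c0 * (k j + 1) / k j)
      (b := C0 * (k j + 1) / k j) (a' := k j / ((k j + 1) * C0)) hkj (by positivity) (by positivity)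
      (by positivity) (fun c : E n → ℝ => LK.B136.Cls c0 C0 m (k j) c) _ h1
      (fun c hc => by rw [← LK.B136.TK_eq_T]; exact h2 c hc) (fun c hc => hc.good hR hC0 hkj)
      hV.toReg.integrable_exp hV1 (hi hV.toReg.gr) (hi (Gr.norm.pow 2)) (ε := (1 / ((j : ℝ) + 1)) ^ 2) (by positivity)
    exact ⟨c, hc, h2 c hc, hKL⟩
  choose c hc hcT hKL using key
  have hG : ∀ j, LK.Good (k j) (c0 * (k j + 1) / k j) (C0 * (k j + 1) / k j) (k j / ((k j + 1) * C0)) (c j) :=
    fun j => (hc j).good hR hC0 (hk0 j)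
  have hpa : ∀ j, 0 < c0 * (k j + 1) / k j := fun j => by have := hk0 j; positivity
  have hpa' : ∀ j, 0 < k j / ((k j + 1) * C0) := fun j => by have := hk0 j; positivity
  have hWi : ∀ j, Integrable fun x : E n => Real.exp (-LK.W (k j) (c j) x) := fun j =>
    (hG j).integrable_exp_neg_W (hk0 j) (hpa j) (hpa' j)
  have hW1 : ∀ j, ∫ x : E n, Real.exp (-LK.W (k j) (c j) x) = 1 := fun j =>
    (hG j).integral_W (hk0 j) (hpa j) (hpa' j)
  have hWV : ∀ j x, LK.W (k j) (c j) x - V x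
      = k j * c j x - k j * LK.B136.TK V (k j) (c j) x + Real.log (LK.Z (k j) (c j)) := by
    intro j x
    rw [LK.B136.TK_eq_T]
    unfold LK.W LK.T
    have := (hk0 j).ne'
    field_simp
    ring
  have hKi : ∀ j, Integrable fun x : E n => (LK.W (k j) (c j) x - V x) * Real.exp (-V x) := by
    intro j
    refine hV.toReg.integrable_gr (f := fun x => LK.W (k j) (c j) x - V x) ?_
    have e : (fun x => LK.W (k j) (c j) x - V x) = fun x =>
        (k j * c j x - k j * LK.B136.TK V (k j) (c j) x) + Real.log (LK.Z (k j) (c j)) := by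
      funext x
      rw [hWV]
    rw [e]
    exact (((hc j).reg.gr.const_mul _).sub ((hcT j).reg.gr.const_mul _)).add (Gr.const _)
  have hVc : Continuous V := hV.toReg.cont
  have hWc : ∀ j, Measurable (LK.W (k j) (c j)) := by
    intro j
    have e : LK.W (k j) (c j) = fun x =>
        (k j * c j x - k j * LK.B136.TK V (k j) (c j) x) + Real.log (LK.Z (k j) (c j)) + V x := by
      funext x
      rw [← hWV]
      ring
    rw [e]
    exact (((((hc j).reg.cont.measurable.const_mul _).sub ((hcT j).reg.cont.measurable.const_mul _)).add_const _).add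
      hVc.measurable)
  have hL1 : ∀ j : ℕ, ∫ x : E n, |Real.exp (-LK.W (k j) (c j) x) - Real.exp (-V x)| ≤ 2 * (1 / ((j : ℝ) + 1)) := fun j =>
    l1_of_KL (by positivity) hVc.measurable (hWc j) hV.toReg.integrable_exp (hWi j) hV1 (hW1 j) (hKi j) (hKL j)
  -- uniform bounds
  have hup : ∀ j, C0 * (k j + 1) / k j ≤ 2 * C0 := fun j => by
    have := hk1 j
    rw [div_le_iff₀ (hk0 j)]
    nlinarith
  have hlo : ∀ j, c0 ≤ c0 * (k j + 1) / k j := fun j => by
    rw [le_div_iff₀ (hk0 j)]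
    nlinarith
  have hreg : ∀ j, Reg (c j) c0 (2 * C0) := fun j => LK.B136.reg_mono (hc j).reg hc0 (hlo j) (hup j)
  set L := 9 / 2 * (2 * m * Real.sqrt (2 * C0) ^ 3) with hLdef
  have hL0 : 0 ≤ L := by positivity
  have hLip : ∀ j x y, ‖fderiv ℝ (fderiv ℝ (c j)) x - fderiv ℝ (fderiv ℝ (c j)) y‖ ≤ L * ‖x - y‖ := fun j x y =>
    cls_lip hC0 (hk1 j) hm (hc j) x y
  have hC2 : ∀ j, ContDiff ℝ 2 (c j) := fun j => RL983.reg_c2 (hc j).reg
  have hd1 : ∀ j, Differentiable ℝ (c j) := fun j => (hC2 j).differentiable (by norm_num)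
  have hd2 : ∀ j, Differentiable ℝ (fderiv ℝ (c j)) := fun j =>
    ((hC2 j).fderiv_right (m := 1) (by norm_num)).differentiable (by norm_num)
  have hquad : ∀ j x v, c0 * ‖v‖ ^ 2 ≤ fderiv ℝ (fderiv ℝ (c j)) x v v ∧
      fderiv ℝ (fderiv ℝ (c j)) x v v ≤ C0 * (k j + 1) / k j * ‖v‖ ^ 2 := by
    intro j x v
    have h1 := (hreg j).lower x v
    have h2 := (hc j).reg.upper x v
    rw [RL983.qf_hess (hC2 j)] at h1 h2
    exact ⟨h1, h2⟩
  obtain ⟨s, hs, g, g', g'', hg, hg', hg''c, hgt, hg't, hg''t, -, -, -⟩ :=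
    AA.c2_seq (f := fun j x => c j x - c j 0) (f' := fun j => fderiv ℝ (c j)) (f'' := fun j => fderiv ℝ (fderiv ℝ (c j)))
      (fun j x => (hd1 j x).hasFDerivAt.sub_const _) (fun j x => (hd2 j x).hasFDerivAt)
      (fun x₀ R => ⟨L, hL0, fun j x _ y _ => by
        rw [dist_eq_norm, dist_eq_norm]
        exact hLip j x y⟩) (x₀ := (0 : E n)) (C := 0) (C' := 0) (C'' := 2 * C0)
      (fun j => by simp) (fun j => by
        show ‖fderiv ℝ (c j) 0‖ ≤ 0
        rw [LK.B136.fderiv_zero_of_even (hd1 j) (hc j).even, norm_zero]) (fun j => by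
        refine norm_le_of_quad (fun u v => ?_) (by positivity) (fun v => ?_) (fun v => ?_)
        · have hs : IsSymmSndFDerivAt ℝ (c j) 0 := (hC2 j).contDiffAt.isSymmSndFDerivAt (by simp)
          exact hs u v
        · exact le_trans (by positivity) (hquad j 0 v).1
        · exact (hquad j 0 v).2.trans (mul_le_mul_of_nonneg_right (hup j) (by positivity)))
  have e1 : fderiv ℝ g = g' := funext fun x => (hg x).fderiv
  have e2 : fderiv ℝ g' = g'' := funext fun x => (hg' x).fderiv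
  have hgC : ContDiff ℝ 2 g := by
    have h1' : ContDiff ℝ 1 g' := contDiff_one_iff_hasFDerivAt.2 ⟨g'', hg''c, hg'⟩
    have h2' : ContDiff ℝ ((1 : ℕ) + 1) g := by
      rw [contDiff_succ_iff_fderiv]
      refine ⟨fun x => (hg x).differentiableAt, fun h => ?_, ?_⟩
      · exact absurd h (by simp)
      · rw [e1]
        exact_mod_cast h1'
    exact_mod_cast h2'
  have hgt1 : ∀ x, Tendsto (fun j => fderiv ℝ (c (s j)) x) atTop (𝓝 (fderiv ℝ g x)) := fun x => by
    rw [e1]; exact hg't x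
  have hgt2 : ∀ x, Tendsto (fun j => fderiv ℝ (fderiv ℝ (c (s j))) x) atTop (𝓝 (fderiv ℝ (fderiv ℝ g) x)) := fun x => by
    rw [e1, e2]; exact hg''t x
  have happ : ∀ (x u v : E n), Tendsto (fun j => fderiv ℝ (fderiv ℝ (c (s j))) x u v) atTop (𝓝 (fderiv ℝ (fderiv ℝ g) x u v)) := by
    intro x u v
    have e1 := ((ContinuousLinearMap.apply ℝ (E n →L[ℝ] ℝ) u).continuous.tendsto _).comp (hgt2 x)
    have e2 := ((ContinuousLinearMap.apply ℝ ℝ v).continuous.tendsto _).comp e1
    exact e2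
  have hglow : ∀ x v, c0 * ‖v‖ ^ 2 ≤ fderiv ℝ (fderiv ℝ g) x v v := fun x v =>
    ge_of_tendsto' (happ x v v) fun j => (hquad (s j) x v).1
  have hks : Tendsto (fun j => k (s j)) atTop atTop := hkl.comp hs.tendsto_atTop
  have hgup : ∀ x v, fderiv ℝ (fderiv ℝ g) x v v ≤ C0 * ‖v‖ ^ 2 := by
    intro x v
    have h1 : Tendsto (fun j => C0 * (k (s j) + 1) / k (s j) * ‖v‖ ^ 2) atTop (𝓝 (C0 * ‖v‖ ^ 2)) := by
      have h2 : Tendsto (fun j => (C0 + C0 * (k (s j))⁻¹) * ‖v‖ ^ 2) atTop (𝓝 ((C0 + C0 * 0) * ‖v‖ ^ 2)) :=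
        (tendsto_const_nhds.add (hks.inv_tendsto_atTop.const_mul C0)).mul_const _
      rw [mul_zero, add_zero] at h2
      refine h2.congr fun j => ?_
      have := (hk0 (s j)).ne'
      field_simp
    exact le_of_tendsto_of_tendsto' (happ x v v) h1 fun j => (hquad (s j) x v).2
  have hlim := limit_pt (c := fun j => c (s j)) (k := fun j => k (s j)) (ψ := g) hc0 (by positivity : 0 < 2 * C0) hL0
    (fun j => hk1 (s j)) hks (fun j => hreg (s j)) (fun j => hLip (s j)) hgC hgt hgt1 hgt2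
  have hdet : ∀ x, (hess g x).det ≠ 0 := fun x => hess_det_ne hgC hc0 x (hglow x)
  have hWcont : Continuous fun x => (∑ i, x i * pd i g x) - g x - Real.log (hess g x).det := by
    have h1 : ∀ i, Continuous (pd i g) := fun i =>
      (contDiff_pd (k := 1) hgC (by norm_num) i).continuous
    have h2 : Continuous fun x => (hess g x).det := by
      refine Continuous.matrix_det ?_
      refine continuous_matrix fun i j => ?_
      exact continuous_hess hgC i j
    have h3 : Continuous fun x : E n => ∑ i, x i * pd i g x :=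
      continuous_finsetSum _ fun i _ => (by fun_prop : Continuous fun x : E n => x i).mul (h1 i)
    exact (h3.sub hgC.continuous).sub (h2.log hdet)
  obtain ⟨t, ht⟩ := ident (W := fun j => LK.W (k (s j)) (c (s j)))
    (β := fun j => Real.log (LK.Z (k (s j)) (c (s j))) - c (s j) 0) (η := fun j => 2 * (1 / ((s j : ℝ) + 1)))
    hVc hWcont hV.toReg.integrable_exp (fun j => hWi (s j)) (fun x => by
      refine (hlim x).congr fun j => ?_
      unfold LK.W
      ring) (by
      have h1 : Tendsto (fun j : ℕ => 1 / ((j : ℝ) + 1)) atTop (𝓝 0) := tendsto_one_div_add_atTop_nhds_zero_nat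
      have h2 := (h1.comp hs.tendsto_atTop).const_mul 2
      rw [mul_zero] at h2
      exact h2) (fun j => hL1 (s j))
  refine ⟨fun x => g x + (-t), L, ?_⟩
  refine ⟨hc0, hgC.add contDiff_const, fun x => ?_, fun x v => ?_, fun x v => ?_, fun i j x y => ?_, fun x => ?_⟩
  · have h1 := hgt (-x)
    have h2 : Tendsto (fun j => c (s j) (-x) - c (s j) 0) atTop (𝓝 (g x)) := by
      refine (hgt x).congr fun j => ?_
      rw [(hc (s j)).even]
    rw [tendsto_nhds_unique h1 h2]
  · rw [hess_add_const, RL983.qf_hess hgC]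
    exact hglow x v
  · rw [hess_add_const, RL983.qf_hess hgC]
    exact hgup x v
  · rw [hess_add_const]
    exact hess_lip_of hgC (AA.lim_lipschitz (f := fun j => fderiv ℝ (fderiv ℝ (c (s j)))) hgt2
      (fun j => hLip (s j)) x y) i j
  · simp only [pd_add_const, hess_add_const]
    rw [ht x]
    ring

/-- **`StmtMM` from the self-concordance theorem.** -/
theorem stmtMM_of (hSC : StmtSC) (hR : LK.B136.LogLapReg) : StmtMM := by
  intro n V c0 C0 hV
  rcases Nat.eq_zero_or_pos n with hn | hn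
  · subst hn
    refine ⟨fun x => -V x, 0, ⟨hV.c_pos, (RL983.reg_c2 hV.toReg).neg, fun x => by rw [hV.even], fun x v => ?_,
      fun x v => ?_, fun i => i.elim0, fun x => ?_⟩⟩
    · have : v = 0 := Subsingleton.elim _ _
      subst this
      simp [qf]
    · have : v = 0 := Subsingleton.elim _ _
      subst this
      simp [qf]
    · simp
  · have hC0 : 0 < C0 := by
      have h1 := hV.lower 0 (ei ⟨0, hn⟩)
      have h2 := hV.upper 0 (ei ⟨0, hn⟩)
      rw [norm_ei] at h1 h2
      have := hV.c_pos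
      linarith
    have hI : 0 < ∫ x : E n, Real.exp (-V x) := hV.toReg.Z_pos
    have hV' := nice_add_const hV (Real.log (∫ x : E n, Real.exp (-V x)))
    have h1 : ∫ x : E n, Real.exp (-(V x + Real.log (∫ x : E n, Real.exp (-V x)))) = 1 := by
      have e : (fun x : E n => Real.exp (-(V x + Real.log (∫ x : E n, Real.exp (-V x)))))
          = fun x => Real.exp (-V x) * (∫ x : E n, Real.exp (-V x))⁻¹ := by
        funext x
        rw [neg_add, Real.exp_add, Real.exp_neg (Real.log _), Real.exp_log hI]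
      rw [e, integral_mul_const, mul_inv_cancel₀ hI.ne']
    obtain ⟨ψ, M, h⟩ := mm_pos hSC hR hV' hC0 h1
    refine ⟨fun x => ψ x + Real.log (∫ x : E n, Real.exp (-V x)), M, ⟨h.c_pos, h.C2.add contDiff_const,
      fun x => by rw [h.even], fun x v => ?_, fun x v => ?_, fun i j x y => ?_, fun x => ?_⟩⟩
    · rw [hess_add_const]; exact h.lower x v
    · rw [hess_add_const]; exact h.upper x v
    · rw [hess_add_const]; exact h.lip i j x y
    · have h2 := h.ma x
      simp only [pd_add_const, hess_add_const]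
      linarith

end Vale.Agent.P227.M.MX
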